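import Mathlib

/-!
Ordered blocks: sets of residues modulo a square on which the square differences increase a rank.
-/

namespace Vale.Agent.P042

open Finset

/-- Residues modulo `m ^ 2` with a rank below `h` that increases along nonzero square steps. -/
def IsBlock (m c h : ℕ) : Prop :=
  ∃ X : Finset ℕ, ∃ φ : ℕ → ℕ, X ⊆ range (m ^ 2) ∧ X.card = c ∧ (∀ x ∈ X, φ x < h) ∧
    ∀ x ∈ X, ∀ y ∈ X, ∀ t : ℕ, (x + t ^ 2) % m ^ 2 = y → x = y ∨ φ x < φ y

theorem IsBlock.unit : IsBlock 1 1 1 :=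
  ⟨{0}, fun _ => 0, by simp, by simp, by simp, fun x hx y hy _ _ => Or.inl (by simp_all)⟩

theorem IsBlock.mono {m c h h' : ℕ} (hh : h ≤ h') (hb : IsBlock m c h) : IsBlock m c h' := by
  obtain ⟨X, φ, h1, h2, h3, h4⟩ := hb
  exact ⟨X, φ, h1, h2, fun x hx => lt_of_lt_of_le (h3 x hx) hh, h4⟩

/-- A block from a finite check. -/
theorem IsBlock.of_check {m c h : ℕ} (hm : 0 < m) (X : Finset ℕ) (φ : ℕ → ℕ)
    (hX : X ⊆ range (m ^ 2)) (hc : X.card = c) (hh : ∀ x ∈ X, φ x < h)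
    (hk : ∀ x ∈ X, ∀ y ∈ X, ∀ t ∈ range (m ^ 2), (x + t * t) % m ^ 2 = y → x = y ∨ φ x < φ y) :
    IsBlock m c h := by
  refine ⟨X, φ, hX, hc, hh, fun x hx y hy t ht => ?_⟩
  refine hk x hx y hy (t % m ^ 2) (mem_range.2 (Nat.mod_lt _ (by positivity))) ?_
  rw [← ht, Nat.add_mod, ← Nat.mul_mod, ← Nat.add_mod, ← sq]

/-- A block from a rank function, with absent residues at rank `h` or more, and a list `Q` of
squares. -/
theorem IsBlock.of_rank {m c h : ℕ} (hm : 0 < m) (T : ℕ → ℕ) (Q : List ℕ)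
    (hQ : ∀ t < m ^ 2, t * t % m ^ 2 ∈ Q)
    (hc : ((range (m ^ 2)).filter (fun x => T x < h)).card = c)
    (hk : ∀ x < m ^ 2, T x < h → ∀ q ∈ Q, T ((x + q) % m ^ 2) < h →
      q = 0 ∨ T x < T ((x + q) % m ^ 2)) :
    IsBlock m c h := by
  refine ⟨(range (m ^ 2)).filter (fun x => T x < h), fun x => T x,
    filter_subset _ _, hc, fun x hx => (mem_filter.1 hx).2, fun x hx y hy t ht => ?_⟩
  rw [mem_filter, mem_range] at hx hy
  have e : (x + (t % m ^ 2) * (t % m ^ 2) % m ^ 2) % m ^ 2 = y := by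
    rw [← Nat.mul_mod, ← ht, sq t, Nat.add_mod x (t * t), Nat.add_mod x (t * t % m ^ 2),
      Nat.mod_mod]
  have hq := hQ _ (Nat.mod_lt t (show 0 < m ^ 2 by positivity))
  rcases hk x hx.1 hx.2 _ hq (by rw [e]; exact hy.2) with h0 | h0
  · left
    rw [← e, h0, add_zero, Nat.mod_eq_of_lt hx.1]
  · right
    rwa [e] at h0

/-- All lifts of classes modulo a number with no nonzero square root of zero. -/
theorem IsBlock.of_lift {n S h : ℕ} (hn : 0 < n)
    (T : List ℕ) (hS : ((range n).filter (fun r => T.getD r h < h)).card = S)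
    (hk : ∀ r < n, T.getD r h < h → ∀ s < n, T.getD ((r + s * s) % n) h < h →
      s = 0 ∨ T.getD r h < T.getD ((r + s * s) % n) h) :
    IsBlock n (n * S) h := by
  obtain ⟨X, hX⟩ : ∃ X, X = (((range n).filter (fun r => T.getD r h < h)) ×ˢ range n).image
      (fun z => z.1 + n * z.2) := ⟨_, rfl⟩
  have hmem : ∀ x ∈ X, x < n ^ 2 ∧ T.getD (x % n) h < h := by
    intro x hx
    rw [hX, mem_image] at hx
    obtain ⟨⟨r, j⟩, hrj, rfl⟩ := hx
    rw [mem_product, mem_filter, mem_range, mem_range] at hrj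
    obtain ⟨⟨hr, hT⟩, hj⟩ := hrj
    refine ⟨?_, by rw [Nat.add_mul_mod_self_left, Nat.mod_eq_of_lt hr]; exact hT⟩
    have : n * (j + 1) ≤ n * n := Nat.mul_le_mul_left _ hj
    rw [mul_add, mul_one] at this
    rw [sq]
    simp only at this ⊢
    omega
  refine ⟨X, fun x => T.getD (x % n) h, fun x hx => mem_range.2 (hmem x hx).1, ?_,
    fun x hx => (hmem x hx).2, fun x hx y hy t ht => ?_⟩
  · rw [hX, card_image_of_injOn, card_product, hS, card_range, mul_comm]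
    rintro ⟨r, j⟩ hz ⟨r', j'⟩ hz' (e : r + n * j = r' + n * j')
    simp only [coe_product, Set.mem_prod, mem_coe, mem_filter, mem_range] at hz hz'
    have e1 : r = r' := by
      have := congrArg (· % n) e
      simpa [Nat.add_mul_mod_self_left, Nat.mod_eq_of_lt hz.1.1,
        Nat.mod_eq_of_lt hz'.1.1] using this
    subst e1
    exact Prod.ext rfl (Nat.eq_of_mul_eq_mul_left hn (Nat.add_left_cancel e))
  · have e : (x % n + (t % n) * (t % n)) % n = y % n := by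
      rw [← ht, Nat.mod_mod_of_dvd _ (dvd_pow_self n two_ne_zero), sq t, Nat.add_mod x (t * t),
        Nat.mul_mod t t, Nat.add_mod_mod]
    rcases hk _ (Nat.mod_lt x hn) (hmem x hx).2 _ (Nat.mod_lt t hn)
      (by rw [e]; exact (hmem y hy).2) with h0 | h0
    · left
      have h1 : n ^ 2 ∣ t ^ 2 := pow_dvd_pow_of_dvd (Nat.dvd_of_mod_eq_zero h0) 2
      rw [← ht, Nat.add_mod, Nat.mod_eq_zero_of_dvd h1, add_zero, Nat.mod_mod,
        Nat.mod_eq_of_lt (hmem x hx).1]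
    · right
      rwa [e] at h0

/-- A transitive part of the tournament of a prime gives a block. -/
theorem IsBlock.of_prime {p : ℕ} (hp : p.Prime) (R : List ℕ) (hR : ∀ r ∈ R, r < p)
    (hnd : R.Nodup)
    (hk : ∀ i < R.length, ∀ j < R.length, ∀ s < p,
      (R.getD i 0 + s * s) % p = R.getD j 0 → i = j ∨ i < j) :
    IsBlock p (p * R.length) R.length := by
  obtain ⟨X, hX⟩ : ∃ X, X = (R.toFinset ×ˢ range p).image (fun z => z.1 + p * z.2) := ⟨_, rfl⟩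
  have hmem : ∀ x ∈ X, x % p ∈ R ∧ x < p ^ 2 := by
    intro x hx
    rw [hX, mem_image] at hx
    obtain ⟨⟨r, j⟩, hrj, rfl⟩ := hx
    rw [mem_product, List.mem_toFinset, mem_range] at hrj
    have hr := hR r hrj.1
    refine ⟨by rw [Nat.add_mul_mod_self_left, Nat.mod_eq_of_lt hr]; exact hrj.1, ?_⟩
    have : p * (j + 1) ≤ p * p := Nat.mul_le_mul_left _ hrj.2
    rw [sq]
    rw [mul_add, mul_one] at this
    simp only at this ⊢
    omega
  refine ⟨X, fun x => R.idxOf (x % p), fun x hx => mem_range.2 (hmem x hx).2, ?_,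
    fun x hx => List.idxOf_lt_length_iff.2 (hmem x hx).1, ?_⟩
  · rw [hX, card_image_of_injOn, card_product, List.toFinset_card_of_nodup hnd, card_range, mul_comm]
    rintro ⟨r, j⟩ hz ⟨r', j'⟩ hz' (e : r + p * j = r' + p * j')
    simp only [coe_product, Set.mem_prod, mem_coe, List.mem_toFinset] at hz hz'
    have e1 : r = r' := by
      have := congrArg (· % p) e
      simpa [Nat.add_mul_mod_self_left, Nat.mod_eq_of_lt (hR r hz.1),
        Nat.mod_eq_of_lt (hR r' hz'.1)] using this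
    subst e1
    exact Prod.ext rfl (Nat.eq_of_mul_eq_mul_left hp.pos (Nat.add_left_cancel e))
  · intro x hx y hy t ht
    by_cases hxy : x % p = y % p
    · left
      have h1 : x + t ^ 2 ≡ y [MOD p] := by
        rw [← ht]; exact ((Nat.mod_modEq _ _).of_dvd (dvd_pow_self p two_ne_zero)).symm
      have h2 : x + t ^ 2 ≡ x + 0 [MOD p] := h1.trans hxy.symm
      have h3 : p ∣ t ^ 2 := Nat.modEq_zero_iff_dvd.1 (Nat.ModEq.add_left_cancel' x h2)
      have h4 : p ^ 2 ∣ t ^ 2 := pow_dvd_pow_of_dvd (hp.dvd_of_dvd_pow h3) 2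
      rw [← ht, Nat.add_mod, Nat.mod_eq_zero_of_dvd h4, add_zero, Nat.mod_mod,
        Nat.mod_eq_of_lt (hmem x hx).2]
    · right
      obtain ⟨hi, hj⟩ := And.intro (hmem x hx).1 (hmem y hy).1
      have hmodp : (x % p + (t % p) * (t % p)) % p = y % p := by
        rw [← ht, Nat.mod_mod_of_dvd _ (dvd_pow_self p two_ne_zero), sq, Nat.add_mod x (t * t),
          Nat.mul_mod t t, Nat.add_mod_mod]
      have hi' := List.idxOf_lt_length_iff.2 hi
      have hj' := List.idxOf_lt_length_iff.2 hj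
      have := hk _ hi' _ hj' (t % p) (Nat.mod_lt _ hp.pos) (by
        rw [List.getD_eq_getElem _ _ hi', List.getD_eq_getElem _ _ hj', List.getElem_idxOf,
          List.getElem_idxOf]
        exact hmodp)
      rcases this with e | e
      · exact absurd (List.idxOf_inj hi |>.1 e) hxy
      · exact e

/-- Two blocks in lexicographic order. -/
theorem IsBlock.lex {m₁ c₁ h₁ m₂ c₂ h₂ : ℕ} (hm₁ : 0 < m₁) (hb₁ : IsBlock m₁ c₁ h₁)
    (hb₂ : IsBlock m₂ c₂ h₂) : IsBlock (m₁ * m₂) (c₁ * c₂) (h₁ * h₂) := by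
  obtain ⟨X, φ, hX, hXc, hXh, hXk⟩ := hb₁
  obtain ⟨Y, ψ, hY, hYc, hYh, hYk⟩ := hb₂
  have hM : 0 < m₁ ^ 2 := by positivity
  obtain ⟨Z, hZ⟩ : ∃ Z, Z = (X ×ˢ Y).image (fun z => z.1 + m₁ ^ 2 * z.2) := ⟨_, rfl⟩
  have hmem : ∀ z ∈ Z, z % m₁ ^ 2 ∈ X ∧ z / m₁ ^ 2 ∈ Y := by
    intro z hz
    rw [hZ, mem_image] at hz
    obtain ⟨⟨x, y⟩, hxy, rfl⟩ := hz
    rw [mem_product] at hxy
    have hx := mem_range.1 (hX hxy.1)
    refine ⟨?_, ?_⟩
    · rw [Nat.add_mul_mod_self_left, Nat.mod_eq_of_lt hx]; exact hxy.1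
    · rw [Nat.add_mul_div_left _ _ hM, Nat.div_eq_of_lt hx, zero_add]; exact hxy.2
  refine ⟨Z, fun z => φ (z % m₁ ^ 2) * h₂ + ψ (z / m₁ ^ 2), ?_, ?_, ?_, ?_⟩
  · intro z hz
    rw [mem_range, mul_pow]
    have h := mem_range.1 (hY (hmem z hz).2)
    rw [Nat.div_lt_iff_lt_mul hM, mul_comm] at h
    exact h
  · rw [hZ, card_image_of_injOn, card_product, hXc, hYc]
    rintro ⟨x, y⟩ hz ⟨x', y'⟩ hz' (e : x + m₁ ^ 2 * y = x' + m₁ ^ 2 * y')
    simp only [coe_product, Set.mem_prod, mem_coe] at hz hz'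
    have e1 : x = x' := by
      have := congrArg (· % m₁ ^ 2) e
      simpa [Nat.add_mul_mod_self_left, Nat.mod_eq_of_lt (mem_range.1 (hX hz.1)),
        Nat.mod_eq_of_lt (mem_range.1 (hX hz'.1))] using this
    subst e1
    exact Prod.ext rfl (Nat.eq_of_mul_eq_mul_left hM (Nat.add_left_cancel e))
  · intro z hz
    have h1 := hXh _ (hmem z hz).1
    have h2 := hYh _ (hmem z hz).2
    have h3 : (φ (z % m₁ ^ 2) + 1) * h₂ ≤ h₁ * h₂ := Nat.mul_le_mul_right _ h1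
    rw [add_mul, one_mul] at h3
    show φ (z % m₁ ^ 2) * h₂ + ψ (z / m₁ ^ 2) < h₁ * h₂
    omega
  · intro x hx y hy t ht
    rw [mul_pow] at ht
    have h1 : (x % m₁ ^ 2 + t ^ 2) % m₁ ^ 2 = y % m₁ ^ 2 := by
      rw [← ht, Nat.mod_mul_right_mod, Nat.mod_add_mod]
    rcases hXk _ (hmem x hx).1 _ (hmem y hy).1 t h1 with e | e
    · have h0 : m₁ ^ 2 ∣ t ^ 2 := by
        have h5 : x % m₁ ^ 2 + t ^ 2 ≡ x % m₁ ^ 2 + 0 [MOD m₁ ^ 2] := by
          show _ % _ = _ % _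
          rw [h1, add_zero, Nat.mod_mod, e]
        exact Nat.modEq_zero_iff_dvd.1 (Nat.ModEq.add_left_cancel' _ h5)
      obtain ⟨u, rfl⟩ := (Nat.pow_dvd_pow_iff two_ne_zero).1 h0
      have h6 : (x / m₁ ^ 2 + u ^ 2) % m₂ ^ 2 = y / m₁ ^ 2 := by
        have e2 : (x + (m₁ * u) ^ 2) / m₁ ^ 2 = x / m₁ ^ 2 + u ^ 2 := by
          rw [mul_pow, Nat.add_mul_div_left _ _ hM]
        rw [← e2, ← ht, Nat.mod_mul_right_div_self]
      rcases hYk _ (hmem x hx).2 _ (hmem y hy).2 u h6 with e' | e'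
      · left
        rw [← Nat.mod_add_div x (m₁ ^ 2), ← Nat.mod_add_div y (m₁ ^ 2), e, e']
      · right
        show φ (x % m₁ ^ 2) * h₂ + _ < φ (y % m₁ ^ 2) * h₂ + _
        rw [e]
        omega
    · right
      have h2 := hYh _ (hmem x hx).2
      have h3 : (φ (x % m₁ ^ 2) + 1) * h₂ ≤ φ (y % m₁ ^ 2) * h₂ := Nat.mul_le_mul_right _ e
      rw [add_mul, one_mul] at h3
      show φ (x % m₁ ^ 2) * h₂ + _ < φ (y % m₁ ^ 2) * h₂ + _
      omega

theorem IsBlock.pow {m c h : ℕ} (hm : 0 < m) (hb : IsBlock m c h) :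
    ∀ L : ℕ, IsBlock (m ^ L) (c ^ L) (h ^ L) := by
  intro L
  induction L with
  | zero => simpa using IsBlock.unit
  | succ L ih =>
    rw [pow_succ, pow_succ, pow_succ]
    exact ih.lex (pow_pos hm L) hb

/-- Two coprime blocks side by side: the ranks add. -/
theorem IsBlock.prod {m₁ c₁ h₁ m₂ c₂ h₂ : ℕ} (hm₁ : 0 < m₁) (hm₂ : 0 < m₂)
    (hco : Nat.Coprime m₁ m₂) (hb₁ : IsBlock m₁ c₁ h₁)
    (hb₂ : IsBlock m₂ c₂ h₂) : IsBlock (m₁ * m₂) (c₁ * c₂) (h₁ + h₂) := by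
  obtain ⟨X, φ, hX, hXc, hXh, hXk⟩ := hb₁
  obtain ⟨Y, ψ, hY, hYc, hYh, hYk⟩ := hb₂
  have hco2 : Nat.Coprime (m₁ ^ 2) (m₂ ^ 2) := hco.pow 2 2
  obtain ⟨Z, hZ⟩ : ∃ Z, Z = (range ((m₁ * m₂) ^ 2)).filter
      (fun z => z % m₁ ^ 2 ∈ X ∧ z % m₂ ^ 2 ∈ Y) := ⟨_, rfl⟩
  refine ⟨Z, fun z => φ (z % m₁ ^ 2) + ψ (z % m₂ ^ 2), ?_, ?_, ?_, ?_⟩
  · rw [hZ]; exact filter_subset _ _
  · rw [← hXc, ← hYc, ← card_product]
    refine card_bij (fun z _ => (z % m₁ ^ 2, z % m₂ ^ 2)) ?_ ?_ ?_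
    · intro z hz
      rw [hZ, mem_filter] at hz
      exact mem_product.2 hz.2
    · intro a ha b hb hab
      rw [hZ, mem_filter, mem_range, mul_pow] at ha hb
      simp only [Prod.mk.injEq] at hab
      exact ((Nat.modEq_and_modEq_iff_modEq_mul hco2).1 ⟨hab.1, hab.2⟩).eq_of_lt_of_lt ha.1 hb.1
    · rintro ⟨x, y⟩ hxy
      rw [mem_product] at hxy
      have hx := mem_range.1 (hX hxy.1)
      have hy := mem_range.1 (hY hxy.2)
      obtain ⟨z, hz1, hz2⟩ := Nat.chineseRemainder hco2 x y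
      refine ⟨z % (m₁ ^ 2 * m₂ ^ 2), ?_, ?_⟩
      · rw [hZ, mem_filter, mem_range, mul_pow, Nat.mod_mul_right_mod, Nat.mod_mul_left_mod]
        refine ⟨Nat.mod_lt _ (by positivity), ?_, ?_⟩
        · rw [show z % m₁ ^ 2 = x from Eq.trans hz1 (Nat.mod_eq_of_lt hx)]; exact hxy.1
        · rw [show z % m₂ ^ 2 = y from Eq.trans hz2 (Nat.mod_eq_of_lt hy)]; exact hxy.2
      · rw [Nat.mod_mul_right_mod, Nat.mod_mul_left_mod,
          show z % m₁ ^ 2 = x from Eq.trans hz1 (Nat.mod_eq_of_lt hx),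
          show z % m₂ ^ 2 = y from Eq.trans hz2 (Nat.mod_eq_of_lt hy)]
  · intro z hz
    rw [hZ, mem_filter] at hz
    exact Nat.add_lt_add (hXh _ hz.2.1) (hYh _ hz.2.2)
  · intro x hx y hy t ht
    rw [hZ, mem_filter, mem_range] at hx hy
    rw [mul_pow] at ht hx hy
    have e1 : (x % m₁ ^ 2 + t ^ 2) % m₁ ^ 2 = y % m₁ ^ 2 := by
      rw [← ht, Nat.mod_mul_right_mod, Nat.mod_add_mod]
    have e2 : (x % m₂ ^ 2 + t ^ 2) % m₂ ^ 2 = y % m₂ ^ 2 := by
      rw [← ht, Nat.mod_mul_left_mod, Nat.mod_add_mod]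
    rcases hXk _ hx.2.1 _ hy.2.1 t e1 with a | a <;>
      rcases hYk _ hx.2.2 _ hy.2.2 t e2 with b | b
    · left
      exact ((Nat.modEq_and_modEq_iff_modEq_mul hco2).1 ⟨a, b⟩).eq_of_lt_of_lt hx.1 hy.1
    · right
      show φ (x % m₁ ^ 2) + _ < φ (y % m₁ ^ 2) + _
      rw [a]; omega
    · right
      show φ (x % m₁ ^ 2) + ψ (x % m₂ ^ 2) < φ (y % m₁ ^ 2) + ψ (y % m₂ ^ 2)
      rw [b]; omega
    · right
      show φ (x % m₁ ^ 2) + ψ (x % m₂ ^ 2) < φ (y % m₁ ^ 2) + ψ (y % m₂ ^ 2)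
      omega

/-- A block gives a set without square differences: higher rank, lower interval. -/
theorem IsBlock.exists_set {m c h : ℕ} (hb : IsBlock m c h) :
    ∃ A : Finset ℕ, A ⊆ Finset.Icc 1 (h * m ^ 2) ∧ A.card = c ∧
      ∀ a ∈ A, ∀ b ∈ A, ∀ t : ℕ, a + t ^ 2 = b → t = 0 := by
  obtain ⟨X, φ, hX, hXc, hXh, hXk⟩ := hb
  refine ⟨X.image (fun x => (h - 1 - φ x) * m ^ 2 + x + 1), ?_, ?_, ?_⟩
  · intro a ha
    obtain ⟨x, hx, rfl⟩ := mem_image.1 ha
    have h1 := mem_range.1 (hX hx)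
    have h2 := hXh x hx
    have h3 : (h - 1 - φ x + 1) * m ^ 2 ≤ h * m ^ 2 := Nat.mul_le_mul_right _ (by omega)
    rw [add_mul, one_mul] at h3
    exact mem_Icc.2 ⟨by omega, by omega⟩
  · rw [card_image_of_injOn, hXc]
    intro x hx y hy e
    have := congrArg (fun v => (v - 1) % m ^ 2) e
    simpa [Nat.mul_add_mod', Nat.mod_eq_of_lt (mem_range.1 (hX hx)),
      Nat.mod_eq_of_lt (mem_range.1 (hX hy))] using this
  · intro a ha b hb t ht
    obtain ⟨x, hx, rfl⟩ := mem_image.1 ha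
    obtain ⟨y, hy, rfl⟩ := mem_image.1 hb
    have h1 := mem_range.1 (hX hx)
    have h2 := mem_range.1 (hX hy)
    have hmod : (x + t ^ 2) % m ^ 2 = y := by
      have e : (h - 1 - φ x) * m ^ 2 + (x + t ^ 2) = (h - 1 - φ y) * m ^ 2 + y := by omega
      have := congrArg (· % m ^ 2) e
      simpa [Nat.mul_add_mod', Nat.mod_eq_of_lt h2] using this
    rcases hXk x hx y hy t hmod with e | e
    · subst e
      exact pow_eq_zero_iff (n := 2) two_ne_zero |>.1 (by omega)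
    · exfalso
      have h4 := hXh y hy
      have h5 : (h - 1 - φ y + 1) * m ^ 2 ≤ (h - 1 - φ x) * m ^ 2 :=
        Nat.mul_le_mul_right _ (by omega)
      rw [add_mul, one_mul] at h5
      omega

end Vale.Agent.P042
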