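import Mathlib
import Vale.Agent.P042.Block

/-!
The eleven blocks and their combination.
-/

namespace Vale.Agent.P042

open Finset Real

theorem IsBlock.step {M C j G T m c h e : ℕ} (hM : 0 < M) (hm : 0 < m)
    (hco : Nat.Coprime M (m ^ e)) (hh : h ^ e ≤ G) (b : IsBlock m c h)
    (acc : IsBlock (M ^ T) (C ^ T) (j * G ^ T)) :
    IsBlock ((M * m ^ e) ^ T) ((C * c ^ e) ^ T) ((j + 1) * G ^ T) := by
  have h1 := ((b.pow hm e).pow (pow_pos hm e) T).mono (Nat.pow_le_pow_left hh T)
  have h2 := acc.prod (pow_pos hM T) (pow_pos (pow_pos hm e) T) (hco.pow T T) h1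
  rwa [← mul_pow, ← mul_pow, ← add_one_mul] at h2

theorem block3 : IsBlock 3 (3 * 2) 2 :=
  IsBlock.of_prime (by norm_num) [0, 1] (by decide) (by decide) (by decide +kernel)

theorem block7 : IsBlock 7 (7 * 3) 3 :=
  IsBlock.of_prime (by norm_num) [0, 1, 2] (by decide) (by decide) (by decide +kernel)

theorem block11 : IsBlock 11 (11 * 4) 4 :=
  IsBlock.of_prime (by norm_num) [0, 1, 4, 5] (by decide) (by decide) (by decide +kernel)

theorem block19 : IsBlock 19 (19 * 5) 5 :=
  IsBlock.of_prime (by norm_num) [0, 1, 6, 17, 7] (by decide) (by decide) (by decide +kernel)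

theorem block31 : IsBlock 31 (31 * 7) 7 :=
  IsBlock.of_prime (by norm_num) [0, 1, 8, 5, 2, 9, 10] (by decide) (by decide) (by decide +kernel)

theorem block43 : IsBlock 43 (43 * 7) 7 :=
  IsBlock.of_prime (by norm_num) [0, 1, 10, 14, 11, 24, 25] (by decide) (by decide) (by decide +kernel)

theorem block59 : IsBlock 59 (59 * 9) 9 :=
  IsBlock.of_prime (by norm_num) [0, 1, 20, 29, 27, 21, 46, 49, 36] (by decide) (by decide) (by decide +kernel)

theorem block71 : IsBlock 71 (71 * 9) 9 :=
  IsBlock.of_prime (by norm_num) [0, 1, 37, 20, 6, 30, 9, 49, 38] (by decide) (by decide) (by decide +kernel)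

theorem block103 : IsBlock 103 (103 * 11) 11 :=
  IsBlock.of_prime (by norm_num) [0, 1, 29, 92, 2, 61, 17, 30, 93, 18, 19] (by decide) (by decide) (by decide +kernel)

/-- Twelve classes modulo `115 = 5 * 23` with six ranks; entry `6` marks an unused class. -/
theorem block115 : IsBlock 115 (115 * 12) 6 :=
  IsBlock.of_lift (by norm_num)
    [6, 6, 6, 6, 2, 6, 6, 6, 6, 6, 6, 6, 4, 6, 6, 1, 6, 6, 6, 6, 6, 6, 6, 6,
      6, 0, 6, 6, 6, 6, 6, 6, 2, 6, 6, 6, 6, 6, 6, 6, 6, 5, 6, 6, 6, 6, 6, 6,
      6, 6, 6, 6, 0, 6, 5, 6, 3, 6, 6, 6, 6, 6, 6, 6, 6, 6, 6, 6, 3, 6, 6, 6,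
      6, 6, 4, 6, 6, 6, 6, 6, 6, 6, 6, 6, 6, 6, 6, 6, 1, 6, 6, 6, 6, 6, 6, 6,
      6, 6, 6, 6, 6, 6, 6, 6, 6, 6, 6, 6, 6, 6, 6, 6, 6, 6, 6]
    (by decide +kernel) (by decide +kernel)

/-- Residues modulo `1024` (296 of them) with thirty-six ranks; entry `36` marks an unused residue. -/
theorem block32 : IsBlock 32 296 36 :=
  IsBlock.of_rank (by norm_num)
    (fun x => (0x8da5089243648da2489161648a490791f92489990792492485a5069244248583069161647a49039243647952439249247574c29249247649029130a472490191c3a47182819249246d74c09243646d72409130a492492491a92492492492492492492492436491a2649249249249249249249249249249249249249249249249249249247a490392436479524392492475544292492476490291102472490191a9247189019249246d54409243646d724091102492492491f92492492492492492492492492492492492492492492492492492492492492492492492492492492492492492492491e9249249249249249249249249249249249249249249249249249249249249249249249249249249249249249249249249249249249249248d74c89249248e49089130a48a490791c9248999079249248574c6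9244248583069130a492492491a9249249249249249249249249249249249249249249249244249243249249249249249249249249249249249249249249249249249249248da5089243e48da2c89161648a490791f92489990792492485a50692442485830691616482490591d3e48172c59249247594c292492476490291512472490191e4247183019249246d94c09243646d724091512492492491c9249249249249249164a49243e491a2e491206492492491b9249249249249249164a49249249249249120648249059243e48172c592492475544292492476490291102472490191a3e47182c19249246d54409243646d724091102492492491f9249249249249249249249243a49242a49249249249249249249249249249249249249249249249249249247e490491c3a47d62849249249189249249249249249140e492492491d3e49242e49249249189249249249249249140e492492491b9249249249249248d54489243a48e42889110248a490791a9248999079249248554469244248583069110247e490491a3a47d62849249249249249249249249249249249249249243a49242a4924924924924924924924924924924924924924924924924924924) >>> (6 * x) % 64)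
    [0, 1, 4, 9, 16, 17, 25, 33, 36, 41, 49, 57, 64, 65, 68, 73, 81, 89, 97, 100, 105, 113, 121, 129,
      132, 137, 144, 145, 153, 161, 164, 169, 177, 185, 193, 196, 201, 209, 217, 225, 228, 233, 241, 249, 256, 257, 260, 265,
      272, 273, 281, 289, 292, 297, 305, 313, 321, 324, 329, 337, 345, 353, 356, 361, 369, 377, 385, 388, 393, 400, 401, 409,
      417, 420, 425, 433, 441, 449, 452, 457, 465, 473, 481, 484, 489, 497, 505, 513, 516, 521, 528, 529, 537, 545, 548, 553,
      561, 569, 576, 577, 580, 585, 593, 601, 609, 612, 617, 625, 633, 641, 644, 649, 656, 657, 665, 673, 676, 681, 689, 697,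
      705, 708, 713, 721, 729, 737, 740, 745, 753, 761, 769, 772, 777, 784, 785, 793, 801, 804, 809, 817, 825, 833, 836, 841,
      849, 857, 865, 868, 873, 881, 889, 897, 900, 905, 912, 913, 921, 929, 932, 937, 945, 953, 961, 964, 969, 977, 985, 993,
      996, 1001, 1009, 1017]
    (by decide +kernel) (by decide +kernel) (by decide +kernel)

/-- The modulus of the family. -/
def famM : ℕ :=
  1 * 3 ^ 295 * 7 ^ 186 * 11 ^ 147 * 19 ^ 127 * 31 ^ 105 *
    43 ^ 105 * 59 ^ 93 * 71 ^ 93 * 103 ^ 85 * 115 ^ 114 *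
    32 ^ 57

/-- The size of the family. -/
def famC : ℕ :=
  1 * (3 * 2) ^ 295 * (7 * 3) ^ 186 * (11 * 4) ^ 147 * (19 * 5) ^ 127 *
    (31 * 7) ^ 105 * (43 * 7) ^ 105 * (59 * 9) ^ 93 * (71 * 9) ^ 93 *
    (103 * 11) ^ 85 * (115 * 12) ^ 114 * 296 ^ 57

theorem family (T : ℕ) : IsBlock (famM ^ T) (famC ^ T) (12 * (2 ^ 295) ^ T) := by
  have h0 : IsBlock (1 ^ T) (1 ^ T) (1 * (2 ^ 295) ^ T) := by
    rw [one_pow, one_mul]
    exact IsBlock.unit.mono (Nat.one_le_pow _ _ (by positivity))
  have h1 := IsBlock.step (e := 295) (by positivity) (by norm_num) (by decide +kernel)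
    (by decide +kernel) block3 h0
  have h2 := IsBlock.step (e := 186) (by positivity) (by norm_num) (by decide +kernel)
    (by decide +kernel) block7 h1
  have h3 := IsBlock.step (e := 147) (by positivity) (by norm_num) (by decide +kernel)
    (by decide +kernel) block11 h2
  have h4 := IsBlock.step (e := 127) (by positivity) (by norm_num) (by decide +kernel)
    (by decide +kernel) block19 h3
  have h5 := IsBlock.step (e := 105) (by positivity) (by norm_num) (by decide +kernel)
    (by decide +kernel) block31 h4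
  have h6 := IsBlock.step (e := 105) (by positivity) (by norm_num) (by decide +kernel)
    (by decide +kernel) block43 h5
  have h7 := IsBlock.step (e := 93) (by positivity) (by norm_num) (by decide +kernel)
    (by decide +kernel) block59 h6
  have h8 := IsBlock.step (e := 93) (by positivity) (by norm_num) (by decide +kernel)
    (by decide +kernel) block71 h7
  have h9 := IsBlock.step (e := 85) (by positivity) (by norm_num) (by decide +kernel)
    (by decide +kernel) block103 h8
  have h10 := IsBlock.step (e := 114) (by positivity) (by norm_num) (by decide +kernel)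
    (by decide +kernel) block115 h9
  have h11 := IsBlock.step (e := 57) (by positivity) (by norm_num) (by decide +kernel)
    (by decide +kernel) block32 h10
  exact h11

theorem numeric : (2 ^ 295 * famM ^ 2) ^ 473 ≤ famC ^ 625 := by
  decide +kernel

/-- A block family with `(G M ^ 2) ^ 473 ≤ C ^ 625` gives exponent `473 / 625`. -/
theorem exponent_of_family (M C G j : ℕ) (hj : 1 ≤ j) (hM : 2 ≤ G * M ^ 2)
    (hfam : ∀ T, IsBlock (M ^ T) (C ^ T) (j * G ^ T)) (hnum : (G * M ^ 2) ^ 473 ≤ C ^ 625) :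
    ∃ c : ℝ, 0 < c ∧ ∀ N : ℕ, ∃ A : Finset ℕ, A ⊆ Finset.Icc 1 N ∧
      (∀ a ∈ A, ∀ b ∈ A, ∀ t : ℕ, a + t ^ 2 = b → t = 0) ∧
      c * (N : ℝ) ^ ((473 : ℝ) / 625) ≤ A.card := by
  obtain ⟨Q, hQ⟩ : ∃ Q, Q = G * M ^ 2 := ⟨_, rfl⟩
  rw [← hQ] at hM hnum
  obtain ⟨B, hB⟩ : ∃ B : ℝ, B = ((j * Q : ℕ) : ℝ) ^ ((473 : ℝ) / 625) := ⟨_, rfl⟩
  have hBpos : 0 < B := hB ▸ rpow_pos_of_pos (Nat.cast_pos.2 (by positivity)) _
  refine ⟨B⁻¹, inv_pos.2 hBpos, fun N => ?_⟩
  rcases Nat.eq_zero_or_pos N with hN | hN
  · subst hN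
    refine ⟨∅, empty_subset _, by simp, ?_⟩
    rw [Nat.cast_zero, zero_rpow (by norm_num), mul_zero, card_empty, Nat.cast_zero]
  by_cases hNj : N < j
  · refine ⟨{1}, by simp; omega, fun a ha b hb t ht => ?_, ?_⟩
    · rw [mem_singleton] at ha hb
      exact (pow_eq_zero_iff (n := 2) two_ne_zero).1 (by omega)
    · rw [card_singleton, Nat.cast_one, inv_mul_le_iff₀ hBpos, mul_one, hB]
      refine rpow_le_rpow (Nat.cast_nonneg _) (Nat.cast_le.2 ?_) (by norm_num)
      exact hNj.le.trans (Nat.le_mul_of_pos_right _ (by omega))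
  · obtain ⟨T, hT⟩ : ∃ T, T = Nat.log Q (N / j) := ⟨_, rfl⟩
    have hdiv : N / j ≠ 0 := (Nat.div_pos (by omega) (by omega)).ne'
    have h1 : j * Q ^ T ≤ N := by
      have := Nat.pow_log_le_self Q hdiv
      rw [← hT] at this
      exact (Nat.mul_le_mul_left j this).trans (Nat.mul_div_le N j)
    have h2 : N < j * Q ^ (T + 1) := by
      have h3 := Nat.lt_pow_succ_log_self (b := Q) (by omega) (N / j)
      rw [← hT] at h3
      rw [mul_comm]
      exact (Nat.div_lt_iff_lt_mul (by omega)).1 h3
    obtain ⟨A, hAsub, hAcard, hAfree⟩ := (hfam T).exists_set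
    refine ⟨A, hAsub.trans (Icc_subset_Icc le_rfl (le_trans (le_of_eq ?_) h1)), hAfree, ?_⟩
    · rw [hQ, mul_pow, ← pow_mul, ← pow_mul, mul_comm T 2, mul_assoc]
    · rw [hAcard, inv_mul_le_iff₀ hBpos, hB]
      have h4 : ((Q ^ T : ℕ) : ℝ) ^ ((473 : ℝ) / 625) ≤ ((C ^ T : ℕ) : ℝ) := by
        have h5 : (Q ^ T) ^ 473 ≤ (C ^ T) ^ 625 := by
          rw [← pow_mul, ← pow_mul, mul_comm T 473, mul_comm T 625, pow_mul, pow_mul]
          exact Nat.pow_le_pow_left hnum T
        have h6 : (((Q ^ T : ℕ) : ℝ) ^ (473 : ℕ)) ^ ((625 : ℕ) : ℝ)⁻¹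
            ≤ (((C ^ T : ℕ) : ℝ) ^ (625 : ℕ)) ^ ((625 : ℕ) : ℝ)⁻¹ := by
          refine rpow_le_rpow (by positivity) ?_ (by positivity)
          exact_mod_cast h5
        rw [pow_rpow_inv_natCast (Nat.cast_nonneg _) (by norm_num), ← rpow_natCast _ 473,
          ← rpow_mul (Nat.cast_nonneg _)] at h6
        push_cast at h6 ⊢
        rwa [div_eq_mul_inv]
      calc (N : ℝ) ^ ((473 : ℝ) / 625) ≤ ((j * Q * Q ^ T : ℕ) : ℝ) ^ ((473 : ℝ) / 625) := by
            refine rpow_le_rpow (Nat.cast_nonneg _) (Nat.cast_le.2 ?_) (by norm_num)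
            rw [mul_assoc, ← pow_succ']
            exact h2.le
        _ = ((j * Q : ℕ) : ℝ) ^ ((473 : ℝ) / 625) * ((Q ^ T : ℕ) : ℝ) ^ ((473 : ℝ) / 625) := by
            rw [Nat.cast_mul _ (Q ^ T), mul_rpow (Nat.cast_nonneg _) (Nat.cast_nonneg _)]
        _ ≤ ((j * Q : ℕ) : ℝ) ^ ((473 : ℝ) / 625) * ((C ^ T : ℕ) : ℝ) :=
            mul_le_mul_of_nonneg_left h4 (rpow_nonneg (Nat.cast_nonneg _) _)

end Vale.Agent.P042
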